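import Vale.Agent.P057.H466.Snd

/-!
The search tree with a certificate: the certificate (a natural number, read in base `1024`) says
for every new term either to expand it (`0`) or which two older terms exclude it (three-term Farkas
test, natural numbers only).
-/

set_option linter.all false

namespace Vale.Agent.P057.H466

/-- one visited term: index, lower and upper end with the wraps added (in units of `p / m`) -/
structure Tn where
  j : ℕ
  lo : ℕ
  hi : ℕ

/-- the terms `a`, `b`, `c` (in this order) exclude each other -/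
def cut3 (a b c : Tn) : Bool :=
  Nat.ble ((c.j - a.j) * b.hi) ((c.j - b.j) * a.lo + (b.j - a.j) * c.lo) ||
  Nat.ble ((c.j - b.j) * a.hi + (b.j - a.j) * c.hi) ((c.j - a.j) * b.lo)

def cut (l : List Tn) (x : ℕ) (c : Tn) : Bool :=
  match l[x % 32]?, l[x / 32]? with
  | some b, some a => Nat.blt a.j b.j && Nat.blt b.j c.j && cut3 a b c
  | _, _ => false

def dfsC (N m hh : ℕ) (iv : ℕ → ℕ × ℕ) :
    ℕ → List Tn → ℕ → ℕ → ℕ → Bool → Bool → ℕ → Option ℕ
  | 0, _, _, _, _, sA, sW, x => if sA && sW then none else some x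
  | n + 1, l, j, wm, r, sA, sW, x =>
    let rA := (r + hh) % N
    let IA := iv rA
    let rW := (r + hh + (N - 1)) % N
    let IW := iv rW
    match (if Nat.ble IA.2 IA.1 then some x
      else if x % 1024 = 0 then
        dfsC N m hh iv n (⟨j + 1, wm + IA.1, wm + IA.2⟩ :: l) (j + 1) wm rA true sW (x / 1024)
      else if cut l (x % 1024) ⟨j + 1, wm + IA.1, wm + IA.2⟩ then some (x / 1024) else none) with
    | none => none
    | some y =>
      if Nat.ble IW.2 IW.1 then some y
      else if y % 1024 = 0 then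
        dfsC N m hh iv n (⟨j + 1, wm + m + IW.1, wm + m + IW.2⟩ :: l) (j + 1) (wm + m) rW sA
          true (y / 1024)
      else if cut l (y % 1024) ⟨j + 1, wm + m + IW.1, wm + m + IW.2⟩ then some (y / 1024)
      else none

/-- `t` describes the actual term of the sequence `u` -/
def RealN (m p h : ℤ) (u : ℕ → ℤ) (t : Tn) : Prop :=
  (t.lo : ℤ) * p < m * (u 0 + t.j * h) ∧ m * (u 0 + t.j * h) < t.hi * p

theorem cut3_false {m p h : ℤ} {u : ℕ → ℤ} (hp : 0 < p) {a b c : Tn} (ha : RealN m p h u a)
    (hb : RealN m p h u b) (hc : RealN m p h u c) (hab : a.j < b.j) (hbc : b.j < c.j)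
    (hcut : cut3 a b c = true) : False := by
  obtain ⟨la, ra⟩ := ha
  obtain ⟨lb, rb⟩ := hb
  obtain ⟨lc, rc⟩ := hc
  obtain ⟨γ, hγ⟩ := Nat.exists_eq_add_of_lt hab
  obtain ⟨α, hα⟩ := Nat.exists_eq_add_of_lt hbc
  have e1 : c.j - b.j = α + 1 := by omega
  have e2 : b.j - a.j = γ + 1 := by omega
  have e3 : c.j - a.j = (α + 1) + (γ + 1) := by omega
  unfold cut3 at hcut
  rw [e1, e2, e3, Bool.or_eq_true] at hcut
  have jb : (b.j : ℤ) = a.j + (γ + 1) := by push_cast [hγ]; ring
  have jc : (c.j : ℤ) = a.j + (γ + 1) + (α + 1) := by push_cast [hα, hγ]; ring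
  have key : ((α : ℤ) + 1) * (m * (u 0 + a.j * h)) + (γ + 1) * (m * (u 0 + c.j * h)) =
      ((α + 1) + (γ + 1)) * (m * (u 0 + b.j * h)) := by
    rw [jb, jc]
    ring
  have h1 : (0 : ℤ) < (α : ℤ) + 1 := by positivity
  have h2 : (0 : ℤ) < (α : ℤ) + 1 + (γ + 1) := by positivity
  have h3 : (0 : ℤ) < (γ : ℤ) + 1 := by positivity
  have A1 := mul_lt_mul_of_pos_left la h1
  have A2 := mul_lt_mul_of_pos_left ra h1
  have B1 := mul_lt_mul_of_pos_left lb h2
  have B2 := mul_lt_mul_of_pos_left rb h2
  have C1 := mul_lt_mul_of_pos_left lc h3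
  have C2 := mul_lt_mul_of_pos_left rc h3
  rcases hcut with hcut | hcut
  · have h4 := Nat.le_of_ble_eq_true hcut
    have h5 : (((α : ℤ) + 1) + (γ + 1)) * b.hi ≤ (α + 1) * a.lo + (γ + 1) * c.lo := by
      exact_mod_cast h4
    have h6 := mul_le_mul_of_nonneg_right h5 hp.le
    linarith
  · have h4 := Nat.le_of_ble_eq_true hcut
    have h5 : ((α : ℤ) + 1) * a.hi + (γ + 1) * c.hi ≤ ((α + 1) + (γ + 1)) * b.lo := by
      exact_mod_cast h4
    have h6 := mul_le_mul_of_nonneg_right h5 hp.le
    linarith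

theorem cut_false {m p h : ℤ} {u : ℕ → ℤ} (hp : 0 < p) {l : List Tn} {x : ℕ} {c : Tn}
    (hl : ∀ t ∈ l, RealN m p h u t) (hc : RealN m p h u c) (hcut : cut l x c = true) :
    False := by
  unfold cut at hcut
  split at hcut
  · rename_i b a hb ha
    rw [Bool.and_eq_true, Bool.and_eq_true] at hcut
    obtain ⟨⟨h1, h2⟩, h3⟩ := hcut
    have h1' : a.j < b.j := by simpa [Nat.blt_eq] using h1
    have h2' : b.j < c.j := by simpa [Nat.blt_eq] using h2
    exact cut3_false hp (hl a (List.mem_of_getElem? ha)) (hl b (List.mem_of_getElem? hb)) hc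
      h1' h2' h3
  · exact absurd hcut (by simp)

/-- the intervals as lists -/
def ivL (iv : ℕ → ℕ × ℕ) (r : ℤ) : List (ℤ × ℤ) :=
  if (iv r.toNat).2 ≤ (iv r.toNat).1 then [] else
    [(((iv r.toNat).1 : ℤ), ((iv r.toNat).2 : ℤ))]

theorem mem_ivL {iv : ℕ → ℕ × ℕ} {r : ℕ} {I : ℤ × ℤ} (hI : I ∈ ivL iv r) :
    Nat.ble (iv r).2 (iv r).1 = false ∧ I = (((iv r).1 : ℤ), ((iv r).2 : ℤ)) := by
  unfold ivL at hI
  rw [Int.toNat_natCast] at hI
  split_ifs at hI with h
  · simp at hI
  · rw [List.mem_singleton] at hI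
    refine ⟨?_, hI⟩
    rw [Bool.eq_false_iff]
    intro h'
    exact h (Nat.le_of_ble_eq_true h')

theorem dfsC_sound {N m hh : ℕ} (hN : 0 < N) {p h q : ℤ} {iv : ℕ → ℕ × ℕ} {u : ℕ → ℤ}
    (hp : 0 < p) (hc : (q * p) % N = 1) (hhh : (q * h) % N = hh) (K : ℕ)
    (hm : ∀ i, i ≤ K → ∃ I ∈ ivL iv ((q * u i) % N), I.1 * p < m * u i ∧ m * u i < I.2 * p)
    (hs : ∀ i, i < K → u (i + 1) = u i + h ∨ u (i + 1) = u i + h - p) :
    ∀ (n i : ℕ) (l : List Tn) (w r : ℕ) (sA sW : Bool) (x y : ℕ), i + n = K →
      (∀ t ∈ l, RealN m p h u t) →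
      u i = u 0 + i * h - w * p → (r : ℤ) = (q * u i) % N →
      (sA = false → ∀ z < i, u (z + 1) = u z + h - p) →
      (sW = false → ∀ z < i, u (z + 1) = u z + h) →
      dfsC N m hh iv n l i (w * m) r sA sW x = some y →
      (∀ z < K, u (z + 1) = u z + h) ∨ (∀ z < K, u (z + 1) = u z + h - p) := by
  have hNz : (0 : ℤ) < N := by exact_mod_cast hN
  intro n
  induction n with
  | zero =>
    intro i l w r sA sW x y hi hl hu hr hA hW hd
    have hiK : i = K := by omega
    subst hiK
    unfold dfsC at hd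
    cases sA with
    | false => exact Or.inr (hA rfl)
    | true =>
      cases sW with
      | false => exact Or.inl (hW rfl)
      | true => simp at hd
  | succ n ih =>
    intro i l w r sA sW x y hi hl hu hr hA hW hd
    have hiK : i < K := by omega
    unfold dfsC at hd
    simp only at hd
    obtain ⟨I, hI, hI1, hI2⟩ := hm (i + 1) (by omega)
    rcases hs i hiK with hst | hst
    · have hres : (((r + hh) % N : ℕ) : ℤ) = (q * u (i + 1)) % N := by
        push_cast
        rw [hr, ← hhh, hst, mul_add]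
        exact (Int.add_emod _ _ _).symm
      have hu' : u (i + 1) = u 0 + ((i + 1 : ℕ) : ℤ) * h - w * p := by
        rw [hst, hu]; push_cast; ring
      rw [← hres] at hI
      obtain ⟨hne, rfl⟩ := mem_ivL hI
      have hR : RealN m p h u ⟨i + 1, w * m + (iv ((r + hh) % N)).1,
          w * m + (iv ((r + hh) % N)).2⟩ := by
        constructor
        · show ((w * m + (iv ((r + hh) % N)).1 : ℕ) : ℤ) * p < m * (u 0 + ((i + 1 : ℕ) : ℤ) * h)
          rw [hu'] at hI1
          push_cast at hI1 ⊢
          linarith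
        · show (m : ℤ) * (u 0 + ((i + 1 : ℕ) : ℤ) * h) < ((w * m + (iv ((r + hh) % N)).2 : ℕ) : ℤ) * p
          rw [hu'] at hI2
          push_cast at hI2 ⊢
          linarith
      rw [hne] at hd
      simp only [Bool.false_eq_true, if_false] at hd
      by_cases hx : x % 1024 = 0
      · rw [if_pos hx] at hd
        split at hd
        · simp at hd
        · rename_i y' hy'
          exact ih (i + 1) _ w ((r + hh) % N) true sW (x / 1024) y' (by omega)
            (fun t ht => by
              rcases List.mem_cons.1 ht with rfl | ht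
              · exact hR
              · exact hl t ht) hu' hres (fun h => by simp at h)
            (fun h z hz => by
              rcases Nat.lt_succ_iff_lt_or_eq.1 hz with h' | rfl
              · exact hW h z h'
              · exact hst) hy'
      · rw [if_neg hx] at hd
        by_cases hcut : cut l (x % 1024) ⟨i + 1, w * m + (iv ((r + hh) % N)).1,
            w * m + (iv ((r + hh) % N)).2⟩ = true
        · exact (cut_false hp hl hR hcut).elim
        · rw [if_neg hcut] at hd
          simp at hd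
    · have hres : (((r + hh + (N - 1)) % N : ℕ) : ℤ) = (q * u (i + 1)) % N := by
        have e1 : ((r + hh + (N - 1) : ℕ) : ℤ) = (r + hh - 1) + N := by
          have : ((N - 1 : ℕ) : ℤ) = N - 1 := by
            rw [Nat.cast_sub hN]; rfl
          push_cast [this]
          ring
        rw [Int.natCast_mod, e1, Int.add_emod_right, hr, ← hhh, ← hc, hst, mul_sub, mul_add]
        exact Int.ModEq.sub (Int.ModEq.add (Int.mod_modEq _ _) (Int.mod_modEq _ _))
          (Int.mod_modEq _ _)
      have hu' : u (i + 1) = u 0 + ((i + 1 : ℕ) : ℤ) * h - ((w + 1 : ℕ) : ℤ) * p := by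
        rw [hst, hu]; push_cast; ring
      rw [← hres] at hI
      obtain ⟨hne, rfl⟩ := mem_ivL hI
      have hR : RealN m p h u ⟨i + 1, w * m + m + (iv ((r + hh + (N - 1)) % N)).1,
          w * m + m + (iv ((r + hh + (N - 1)) % N)).2⟩ := by
        constructor
        · show ((w * m + m + (iv ((r + hh + (N - 1)) % N)).1 : ℕ) : ℤ) * p <
            m * (u 0 + ((i + 1 : ℕ) : ℤ) * h)
          rw [hu'] at hI1
          push_cast at hI1 ⊢
          linarith
        · show (m : ℤ) * (u 0 + ((i + 1 : ℕ) : ℤ) * h) <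
            ((w * m + m + (iv ((r + hh + (N - 1)) % N)).2 : ℕ) : ℤ) * p
          rw [hu'] at hI2
          push_cast at hI2 ⊢
          linarith
      split at hd
      · simp at hd
      · rename_i y' hy'
        rw [hne] at hd
        simp only [Bool.false_eq_true, if_false] at hd
        by_cases hx : y' % 1024 = 0
        · rw [if_pos hx] at hd
          have e : w * m + m = (w + 1) * m := by ring
          rw [e] at hd
          exact ih (i + 1) _ (w + 1) ((r + hh + (N - 1)) % N) sA true (y' / 1024) y (by omega)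
            (fun t ht => by
              rcases List.mem_cons.1 ht with rfl | ht
              · rw [e] at hR
                exact hR
              · exact hl t ht) hu' hres
            (fun h z hz => by
              rcases Nat.lt_succ_iff_lt_or_eq.1 hz with h' | rfl
              · exact hA h z h'
              · exact hst) (fun h => by simp at h) hd
        · rw [if_neg hx] at hd
          by_cases hcut : cut l (y' % 1024) ⟨i + 1, w * m + m + (iv ((r + hh + (N - 1)) % N)).1,
              w * m + m + (iv ((r + hh + (N - 1)) % N)).2⟩ = true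
          · exact (cut_false hp hl hR hcut).elim
          · rw [if_neg hcut] at hd
            simp at hd

/-- the whole check -/
def checkC (N m : ℕ) (iv : ℕ → ℕ × ℕ) (k : ℕ) (cert : List ℕ) : Bool :=
  (List.range N).all fun r => Nat.ble (iv r).2 (iv r).1 || (List.range N).all fun hh =>
    (dfsC N m hh iv (k - 1) [⟨0, (iv r).1, (iv r).2⟩] 0 0 r false false
      (cert.getD (r * N + hh) 0)).isSome

theorem sound_of_checkC {N m k : ℕ} (hN : 0 < N) {iv : ℕ → ℕ × ℕ} {cert : List ℕ}
    (hcheck : checkC N m iv k cert = true) : Sound N m (ivL iv) k := by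
  intro p h q u hp hc hm hs
  have hNz : (0 : ℤ) < N := by exact_mod_cast hN
  obtain ⟨I, hI, hI1, hI2⟩ := hm 0 (by omega)
  have hr0 : 0 ≤ (q * u 0) % (N : ℤ) := Int.emod_nonneg _ hNz.ne'
  have hr1 : (q * u 0) % (N : ℤ) < N := Int.emod_lt_of_pos _ hNz
  have hg0 : 0 ≤ (q * h) % (N : ℤ) := Int.emod_nonneg _ hNz.ne'
  have hg1 : (q * h) % (N : ℤ) < N := Int.emod_lt_of_pos _ hNz
  obtain ⟨r, hr⟩ := Int.eq_ofNat_of_zero_le hr0
  obtain ⟨hh, hhh⟩ := Int.eq_ofNat_of_zero_le hg0
  rw [hr] at hI hr1
  rw [hhh] at hg1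
  obtain ⟨hne, rfl⟩ := mem_ivL hI
  unfold checkC at hcheck
  rw [List.all_eq_true] at hcheck
  have h1 := hcheck r (List.mem_range.2 (by exact_mod_cast hr1))
  rw [hne, Bool.false_or, List.all_eq_true] at h1
  have h2 := h1 hh (List.mem_range.2 (by exact_mod_cast hg1))
  obtain ⟨y, hy⟩ := Option.isSome_iff_exists.1 h2
  have hR : RealN m p h u ⟨0, (iv r).1, (iv r).2⟩ := by
    constructor
    · show ((iv r).1 : ℤ) * p < m * (u 0 + ((0 : ℕ) : ℤ) * h)
      simpa using hI1
    · show (m : ℤ) * (u 0 + ((0 : ℕ) : ℤ) * h) < ((iv r).2 : ℤ) * p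
      simpa using hI2
  exact dfsC_sound hN hp hc hhh (k - 1) hm hs (k - 1) 0 [⟨0, (iv r).1, (iv r).2⟩] 0 r false false
    _ y (by omega)
    (by
      intro t ht
      rw [List.mem_singleton] at ht
      subst ht
      exact hR)
    (by simp) hr.symm (by intro _ z hz; omega) (by intro _ z hz; omega)
    (by simpa using hy)

end Vale.Agent.P057.H466
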