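import Vale.Agent.P057.H466.Kb12
import Vale.Agent.P057.H466.Kc16
import Vale.Agent.P057.H466.Kb24
import Vale.Agent.P057.H466.Kb32
import Vale.Agent.P057.H955.Two
import Vale.Agent.P057.H562.Bas

/-!
The lower bounds for sets without `k`-term progressions: improved first level (blocks of
`H466`, `H562`), second level (`H955`) and last level (`H562/Bas.lean`).
-/

set_option linter.all false

open Finset

namespace Vale.Agent.P057.H466

open Vale.Agent.P057.Lower Vale.Agent.P057.H562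

/-- the constants of the first level -/
def Kap (k : ℕ) (κ : ℝ) : Prop :=
  (5 ≤ k ∧ κ = Real.log (12 / 7)) ∨ (6 ≤ k ∧ κ = Real.log (5 / 3)) ∨
  (7 ≤ k ∧ κ = Real.log (14 / 9)) ∨ (8 ≤ k ∧ κ = Real.log (48 / 31)) ∨
  (9 ≤ k ∧ κ = Real.log (3 / 2)) ∨ (12 ≤ k ∧ κ = Real.log (60 / 41)) ∨
  (16 ≤ k ∧ κ = Real.log (288 / 211)) ∨ (24 ≤ k ∧ κ = Real.log (720 / 547)) ∨
  (32 ≤ k ∧ κ = Real.log (720 / 553)) ∨
  ∃ B : ℕ, 3 ≤ B ∧
    (2 * (B : ℝ) ^ 2 * (B + 1) ≤ k + 1 ∨ 12 * (B : ℝ) ^ 2 * (1 + Real.log k) ≤ k + 1) ∧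
    κ = Real.log (B / (B - 2))

/-- the constants of the second level -/
def Lam (k : ℕ) (l : ℝ) : Prop :=
  l = Real.log 4 ∨ (8 ≤ k ∧ l = Real.log (48 / 13)) ∨ (9 ≤ k ∧ l = Real.log (24 / 7))

theorem kap_cost {k : ℕ} {κ : ℝ} (h : Kap k κ) : 0 < κ ∧ 5 ≤ k ∧ Cost k 1 κ := by
  rcases h with ⟨hk, rfl⟩ | ⟨hk, rfl⟩ | ⟨hk, rfl⟩ | ⟨hk, rfl⟩ | ⟨hk, rfl⟩ | ⟨hk, rfl⟩ |
    ⟨hk, rfl⟩ | ⟨hk, rfl⟩ | ⟨hk, rfl⟩ | ⟨B, hB, hBk, h⟩
  · exact ⟨Real.log_pos (by norm_num), by omega, cost5 k hk⟩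
  · exact ⟨Real.log_pos (by norm_num), by omega, cost6 k hk⟩
  · exact ⟨Real.log_pos (by norm_num), by omega, cost7 k hk⟩
  · exact ⟨Real.log_pos (by norm_num), by omega, cost8 k hk⟩
  · exact ⟨Real.log_pos (by norm_num), by omega, cost9 k hk⟩
  · exact ⟨Real.log_pos (by norm_num), by omega, kb12 k hk⟩
  · exact ⟨Real.log_pos (by norm_num), by omega, kc16 k hk⟩
  · exact ⟨Real.log_pos (by norm_num), by omega, kb24 k hk⟩
  · exact ⟨Real.log_pos (by norm_num), by omega, kb32 k hk⟩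
  · have hBR : (3 : ℝ) ≤ B := by exact_mod_cast hB
    have e : -Real.log (1 - 2 / (B : ℝ)) = Real.log (B / (B - 2)) := by
      rw [← Real.log_inv]
      congr 1
      have : (B : ℝ) - 2 ≠ 0 := by linarith only [hBR]
      field_simp
    rw [h, ← e]
    refine ⟨kappa_pos B hBR, ?_, ?_⟩
    · have hlogk : 0 ≤ Real.log k := Real.log_natCast_nonneg k
      have h1 : (5 : ℝ) ≤ k := by
        rcases hBk with hk | hk
        · nlinarith only [hk, hBR]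
        · nlinarith only [hk, hBR, hlogk, mul_nonneg (sq_nonneg (B : ℝ)) hlogk]
      exact_mod_cast h1
    · rcases hBk with h1 | h1
      · exact cost_det k B hB (by exact_mod_cast h1)
      · exact cost_rand k B hB h1

theorem lam_cost {k : ℕ} {l : ℝ} (h : Lam k l) : 0 < l ∧ Cost k 2 l := by
  rcases h with rfl | ⟨hk, rfl⟩ | ⟨hk, rfl⟩
  · refine ⟨Real.log_pos (by norm_num), ?_⟩
    have h1 := cost_interval k 2
    have h2 : ((2 : ℕ) : ℝ) * Real.log 2 = Real.log 4 := by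
      rw [← Real.log_rpow (by norm_num)]
      norm_num
    rwa [h2] at h1
  · exact ⟨Real.log_pos (by norm_num), Vale.Agent.P057.H955.cost8_two k hk⟩
  · exact ⟨Real.log_pos (by norm_num), Vale.Agent.P057.H955.cost9_two' k hk⟩

theorem three_le_clog {k : ℕ} (hk : 5 ≤ k) : 3 ≤ Nat.clog 2 k := by
  by_contra hcon
  push Not at hcon
  have h3 : k ≤ 2 ^ Nat.clog 2 k := Nat.le_pow_clog (by norm_num) k
  have h4 : 2 ^ Nat.clog 2 k ≤ 2 ^ 2 := Nat.pow_le_pow_right (by norm_num) (by omega)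
  omega

theorem sum_aux (s : ℕ) : (∑ j ∈ range s, (s + 3 - 1 - j)) + 3 = (s + 3) * (s + 3 - 1) / 2 := by
  have h1 : ∑ j ∈ range s, (s + 3 - 1 - j) = ∑ j ∈ range s, (j + 3) := by
    rw [← Finset.sum_range_reflect (fun j => j + 3) s]
    refine Finset.sum_congr rfl fun j hj => ?_
    have := Finset.mem_range.1 hj
    omega
  have h2 : ∀ s : ℕ, 2 * ∑ j ∈ range s, (j + 3) = s * (s + 5) := by
    intro s
    induction s with
    | zero => simp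
    | succ s ih => rw [Finset.sum_range_succ, mul_add, ih]; ring
  have h3 := h2 s
  have h4 : (s + 3) * (s + 3 - 1) = s * (s + 5) + 6 := by
    rw [show s + 3 - 1 = s + 2 from rfl]; ring
  rw [h1, h4]
  omega

/-- all levels, improved first and second level, any last level -/
theorem asy_two (k n : ℕ) (hn : 3 ≤ n) (hk : 2 ^ (n - 1) < k) (κ l : ℝ) (hκ : 0 < κ)
    (hl : 0 < l) (hc1 : Cost k 1 κ) (hc2 : Cost k 2 l) (G0 : ℝ) (hG0 : 0 < G0)
    (hbase : Asy k (2 ^ (n - 1)) 1 G0) :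
    Asy k 1 n (2 ^ (n * (n - 1) / 2 - 1) * Real.log 2 ^ (n - 3) * κ * l * G0) := by
  obtain ⟨s, rfl⟩ : ∃ s, n = s + 3 := ⟨n - 3, by omega⟩
  have h := asy_pow_gen k (s + 3) (by omega) hk G0 hG0 hbase s (by omega)
  have e1 : s + 3 - 1 - s = 2 := by omega
  rw [e1] at h
  have hlog : 0 < Real.log 2 := Real.log_pos (by norm_num)
  have h4 : 4 ≤ 2 ^ (s + 3 - 1) := by
    calc 4 = 2 ^ 2 := by norm_num
      _ ≤ 2 ^ (s + 3 - 1) := Nat.pow_le_pow_right (by norm_num) (by omega)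
  have hst2 := step k 2 (s + 1) (by norm_num) (by omega) (by omega) l _ hl (by positivity) hc2 h
  have hst1 := step k 1 (s + 1 + 1) le_rfl (by omega) (by omega) κ _ hκ (by positivity) hc1 hst2
  have e2 : s + 1 + 1 + 1 = s + 3 := rfl
  rw [e2] at hst1
  have e3 : (s + 3) * (s + 3 - 1) / 2 - 1 = (∑ j ∈ range s, (s + 3 - 1 - j)) + 2 := by
    have := sum_aux s
    omega
  have e4 : s + 3 - 3 = s := by omega
  have e5 : 2 * κ * (2 * l * (2 ^ (∑ j ∈ range s, (s + 3 - 1 - j)) * Real.log 2 ^ s * G0)) =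
      2 ^ ((s + 3) * (s + 3 - 1) / 2 - 1) * Real.log 2 ^ (s + 3 - 3) * κ * l * G0 := by
    rw [e3, e4, pow_add]
    ring
  rw [e5] at hst1
  exact hst1

/-- improved first and second level -/
theorem first_level (k n : ℕ) (hn : n = Nat.clog 2 k) (κ l : ℝ) (hκ : Kap k κ) (hl : Lam k l)
    (ε : ℝ) (hε : 0 < ε) :
    ∃ N₀ : ℕ, ∀ N : ℕ, N₀ ≤ N →
      ∃ A : Finset ℕ, A ⊆ Finset.Icc 1 N ∧ (∀ a d : ℕ, 0 < d → ¬ ∀ j < k, a + j * d ∈ A) ∧
        (N : ℝ) * Real.exp (-((1 + ε) * n * ((2 ^ (n * (n - 1) / 2 - 1) *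
          Real.log 2 ^ (n - 3) * κ * l) * Real.log N) ^ ((1 : ℝ) / n))) ≤ A.card := by
  obtain ⟨h0, hk, hc⟩ := kap_cost hκ
  obtain ⟨h0', hc'⟩ := lam_cost hl
  subst hn
  have hpow : 2 ^ (Nat.clog 2 k - 1) < k := Nat.pow_pred_clog_lt_self (by norm_num) (by omega)
  have h := asy_two k (Nat.clog 2 k) (three_le_clog hk) hpow κ l h0 h0' hc hc' 1 one_pos
    (base k _ Nat.one_le_two_pow hpow)
  rw [mul_one] at h
  exact to_sets k _ _ h ε hε

/-- improved first, second and last level -/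
theorem last_level (k n p m : ℕ) (hn : n = Nat.clog 2 k) (hp : p.Prime)
    (hp1 : 2 ^ (n - 1) + 2 ≤ p) (hp2 : p ≤ k) (hm : 3 ≤ m)
    (hkm : (m + 2) * 2 ^ (n - 1) < m * k) (κ l : ℝ) (hκ : Kap k κ) (hl : Lam k l)
    (ε : ℝ) (hε : 0 < ε) :
    ∃ N₀ : ℕ, ∀ N : ℕ, N₀ ≤ N →
      ∃ A : Finset ℕ, A ⊆ Finset.Icc 1 N ∧ (∀ a d : ℕ, 0 < d → ¬ ∀ j < k, a + j * d ∈ A) ∧
        (N : ℝ) * Real.exp (-((1 + ε) * n * ((2 ^ (n * (n - 1) / 2 - 1) *
          Real.log 2 ^ (n - 3) * κ * l * (1 - 1 / (m : ℝ))) * Real.log N) ^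
            ((1 : ℝ) / n))) ≤ A.card := by
  obtain ⟨h0, hk, hc⟩ := kap_cost hκ
  obtain ⟨h0', hc'⟩ := lam_cost hl
  have hn3 : 3 ≤ n := by
    rw [hn]
    exact three_le_clog hk
  have hmR : (3 : ℝ) ≤ m := by exact_mod_cast hm
  have hm1 : 0 < 1 - 1 / (m : ℝ) := by
    have : 1 / (m : ℝ) < 1 := by
      rw [div_lt_one (by linarith only [hmR])]
      linarith only [hmR]
    linarith only [this]
  have hpow : 2 ^ (n - 1) < k := by omega
  exact to_sets k n _ (asy_two k n hn3 hpow κ l h0 h0' hc hc' (1 - 1 / (m : ℝ)) hm1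
    (asy_base k _ m p hm Nat.one_le_two_pow hkm hp hp1 hp2)) ε hε

/-- progressions of length a power of two -/
theorem power_of_two (n : ℕ) (hn : 3 ≤ n) (κ l : ℝ) (hκ : Kap (2 ^ n) κ) (hl : Lam (2 ^ n) l)
    (ε : ℝ) (hε : 0 < ε) :
    ∃ N₀ : ℕ, ∀ N : ℕ, N₀ ≤ N →
      ∃ A : Finset ℕ, A ⊆ Finset.Icc 1 N ∧ (∀ a d : ℕ, 0 < d → ¬ ∀ j < 2 ^ n, a + j * d ∈ A) ∧
        (N : ℝ) * Real.exp (-((1 + ε) * n * ((2 ^ (n * (n - 1) / 2 - 1) *
          Real.log 2 ^ (n - 3) * κ * l * (2 / 3)) * Real.log N) ^ ((1 : ℝ) / n))) ≤ A.card := by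
  obtain ⟨p, hp, hp1, hp2⟩ := prime_between n hn
  have h8 : 8 ≤ 2 ^ n := by
    calc 8 = 2 ^ 3 := by norm_num
      _ ≤ 2 ^ n := Nat.pow_le_pow_right (by norm_num) hn
  have e1 : 2 ^ n = 2 * 2 ^ (n - 1) := by
    rw [← pow_succ']
    congr 1
    omega
  have h := last_level (2 ^ n) n p 3 (Nat.clog_pow 2 n (by norm_num)).symm hp hp1 hp2
    le_rfl (by omega) κ l hκ hl ε hε
  have e2 : (1 : ℝ) - 1 / ((3 : ℕ) : ℝ) = 2 / 3 := by norm_num
  rw [e2] at h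
  exact h

end Vale.Agent.P057.H466
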