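import Mathlib

/-!
A finite search tree which proves that long progressions modulo `p` inside a union of intervals
(one list of intervals for every class modulo `N`) are genuine progressions.
-/

set_option linter.all false

namespace Vale.Agent.P057.H466

/-- one visited term: index, wraps, lower and upper end (in units of `p / m`) -/
structure Tm where
  j : ℤ
  w : ℤ
  lo : ℤ
  hi : ℤ

def ok3 (m : ℤ) (a b c : Tm) : Bool :=
  decide ((c.j - b.j) * a.lo - (c.j - a.j) * b.hi + (b.j - a.j) * c.lo <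
    ((c.j - a.j) * b.w - (c.j - b.j) * a.w - (b.j - a.j) * c.w) * m) &&
  decide (((c.j - a.j) * b.w - (c.j - b.j) * a.w - (b.j - a.j) * c.w) * m <
    (c.j - b.j) * a.hi - (c.j - a.j) * b.lo + (b.j - a.j) * c.hi)

def okPairs (m : ℤ) (c : Tm) : List Tm → Bool
  | [] => true
  | b :: rest => rest.all (fun a => ok3 m a b c) && okPairs m c rest

def dfs (N m c hh : ℤ) (iv : ℤ → List (ℤ × ℤ)) :
    ℕ → List Tm → ℤ → ℤ → ℤ → Bool → Bool → Bool
  | 0, _, _, _, _, sA, sW => !(sA && sW)
  | n + 1, l, j, w, r, sA, sW =>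
    ((iv ((r + hh) % N)).all fun I =>
      !(okPairs m ⟨j + 1, w, I.1, I.2⟩ l) ||
        dfs N m c hh iv n (⟨j + 1, w, I.1, I.2⟩ :: l) (j + 1) w ((r + hh) % N) true sW) &&
    ((iv ((r + hh - c) % N)).all fun I =>
      !(okPairs m ⟨j + 1, w + 1, I.1, I.2⟩ l) ||
        dfs N m c hh iv n (⟨j + 1, w + 1, I.1, I.2⟩ :: l) (j + 1) (w + 1)
          ((r + hh - c) % N) sA true)

/-- the term `t` describes the actual term of the sequence `u` -/
def Real' (m p h : ℤ) (u : ℕ → ℤ) (t : Tm) : Prop :=
  ∃ i : ℕ, t.j = i ∧ u i = u 0 + i * h - t.w * p ∧ t.lo * p < m * u i ∧ m * u i < t.hi * p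

theorem ok3_true {m p h : ℤ} {u : ℕ → ℤ} (hp : 0 < p) {a b c : Tm} (ha : Real' m p h u a)
    (hb : Real' m p h u b) (hc : Real' m p h u c) (hab : a.j < b.j) (hbc : b.j < c.j) :
    ok3 m a b c = true := by
  obtain ⟨ia, ja, ea, la, ra⟩ := ha
  obtain ⟨ib, jb, eb, lb, rb⟩ := hb
  obtain ⟨ic, jc, ec, lc, rc⟩ := hc
  have h1 : 0 < c.j - b.j := by linarith
  have h2 : 0 < c.j - a.j := by linarith
  have h3 : 0 < b.j - a.j := by linarith
  have key : (c.j - b.j) * u ia - (c.j - a.j) * u ib + (b.j - a.j) * u ic =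
      ((c.j - a.j) * b.w - (c.j - b.j) * a.w - (b.j - a.j) * c.w) * p := by
    rw [ea, eb, ec, ja, jb, jc]
    ring
  have keym : (c.j - b.j) * (m * u ia) - (c.j - a.j) * (m * u ib) + (b.j - a.j) * (m * u ic) =
      (((c.j - a.j) * b.w - (c.j - b.j) * a.w - (b.j - a.j) * c.w) * m) * p := by
    linear_combination m * key
  have A1 := mul_lt_mul_of_pos_left la h1
  have A2 := mul_lt_mul_of_pos_left ra h1
  have B1 := mul_lt_mul_of_pos_left lb h2
  have B2 := mul_lt_mul_of_pos_left rb h2
  have C1 := mul_lt_mul_of_pos_left lc h3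
  have C2 := mul_lt_mul_of_pos_left rc h3
  unfold ok3
  rw [Bool.and_eq_true, decide_eq_true_eq, decide_eq_true_eq]
  constructor
  · apply lt_of_mul_lt_mul_right _ hp.le
    rw [← keym]
    linarith
  · apply lt_of_mul_lt_mul_right _ hp.le
    rw [← keym]
    linarith

theorem okPairs_true {m p h : ℤ} {u : ℕ → ℤ} (hp : 0 < p) {c : Tm} (hc : Real' m p h u c) :
    ∀ l : List Tm, (∀ t ∈ l, Real' m p h u t ∧ t.j < c.j) → l.Pairwise (fun x y => y.j < x.j) →
      okPairs m c l = true := by
  intro l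
  induction l with
  | nil => intro _ _; rfl
  | cons b rest ih =>
    intro hl hs
    rw [List.pairwise_cons] at hs
    unfold okPairs
    rw [Bool.and_eq_true, List.all_eq_true]
    refine ⟨fun a ha => ?_, ih (fun t ht => hl t (List.mem_cons_of_mem _ ht)) hs.2⟩
    exact ok3_true hp (hl a (List.mem_cons_of_mem _ ha)).1 (hl b List.mem_cons_self).1 hc
      (hs.1 a ha) (hl b List.mem_cons_self).2

theorem dfs_sound {N m c hh p h : ℤ} {iv : ℤ → List (ℤ × ℤ)} {u : ℕ → ℤ} (hp : 0 < p)
    (hc : p % N = c) (hhh : h % N = hh) (K : ℕ)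
    (hm : ∀ i, i ≤ K → ∃ I ∈ iv (u i % N), I.1 * p < m * u i ∧ m * u i < I.2 * p)
    (hs : ∀ i, i < K → u (i + 1) = u i + h ∨ u (i + 1) = u i + h - p) :
    ∀ (n i : ℕ) (l : List Tm) (w r : ℤ) (sA sW : Bool), i + n = K →
      (∀ t ∈ l, Real' m p h u t ∧ t.j ≤ i) → l.Pairwise (fun x y => y.j < x.j) →
      u i = u 0 + i * h - w * p → r = u i % N →
      (sA = false → ∀ q < i, u (q + 1) = u q + h - p) →
      (sW = false → ∀ q < i, u (q + 1) = u q + h) →
      dfs N m c hh iv n l i w r sA sW = true →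
      (∀ q < K, u (q + 1) = u q + h) ∨ (∀ q < K, u (q + 1) = u q + h - p) := by
  intro n
  induction n with
  | zero =>
    intro i l w r sA sW hi hl hpw hu hr hA hW hd
    have hiK : i = K := by omega
    subst hiK
    unfold dfs at hd
    cases sA with
    | false => exact Or.inr (hA rfl)
    | true =>
      cases sW with
      | false => exact Or.inl (hW rfl)
      | true => simp at hd
  | succ n ih =>
    intro i l w r sA sW hi hl hpw hu hr hA hW hd
    have hiK : i < K := by omega
    unfold dfs at hd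
    rw [Bool.and_eq_true, List.all_eq_true, List.all_eq_true] at hd
    obtain ⟨I, hI, hI1, hI2⟩ := hm (i + 1) (by omega)
    rcases hs i hiK with hst | hst
    · have hres : (r + hh) % N = u (i + 1) % N := by
        rw [hr, ← hhh, hst]
        exact (Int.add_emod _ _ _).symm
      have hu' : u (i + 1) = u 0 + ((i + 1 : ℕ) : ℤ) * h - w * p := by
        rw [hst, hu]; push_cast; ring
      have hd1 := hd.1 I (by rw [hres]; exact hI)
      have hR : Real' m p h u ⟨(i : ℤ) + 1, w, I.1, I.2⟩ :=
        ⟨i + 1, by push_cast; rfl, hu', hI1, hI2⟩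
      have hok : okPairs m ⟨(i : ℤ) + 1, w, I.1, I.2⟩ l = true :=
        okPairs_true hp hR l (fun t ht => ⟨(hl t ht).1, by
          have := (hl t ht).2
          show t.j < (i : ℤ) + 1
          omega⟩) hpw
      rw [hok] at hd1
      simp only [Bool.not_true, Bool.false_or] at hd1
      refine ih (i + 1) (⟨(i : ℤ) + 1, w, I.1, I.2⟩ :: l) w ((r + hh) % N) true sW (by omega)
        ?_ ?_ hu' hres (fun h => by simp at h) ?_ (by push_cast; exact hd1)
      · intro t ht
        rcases List.mem_cons.1 ht with rfl | ht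
        · exact ⟨hR, by push_cast; exact le_refl _⟩
        · exact ⟨(hl t ht).1, by have := (hl t ht).2; push_cast; omega⟩
      · rw [List.pairwise_cons]
        exact ⟨fun t ht => by have := (hl t ht).2; show t.j < (i : ℤ) + 1; omega, hpw⟩
      · intro h q hq
        rcases Nat.lt_succ_iff_lt_or_eq.1 hq with h' | rfl
        · exact hW h q h'
        · exact hst
    · have hres : (r + hh - c) % N = u (i + 1) % N := by
        rw [hr, ← hhh, ← hc, hst]
        exact Int.ModEq.sub (Int.ModEq.add (Int.mod_modEq _ _) (Int.mod_modEq _ _))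
          (Int.mod_modEq _ _)
      have hu' : u (i + 1) = u 0 + ((i + 1 : ℕ) : ℤ) * h - (w + 1) * p := by
        rw [hst, hu]; push_cast; ring
      have hd1 := hd.2 I (by rw [hres]; exact hI)
      have hR : Real' m p h u ⟨(i : ℤ) + 1, w + 1, I.1, I.2⟩ :=
        ⟨i + 1, by push_cast; rfl, hu', hI1, hI2⟩
      have hok : okPairs m ⟨(i : ℤ) + 1, w + 1, I.1, I.2⟩ l = true :=
        okPairs_true hp hR l (fun t ht => ⟨(hl t ht).1, by
          have := (hl t ht).2
          show t.j < (i : ℤ) + 1
          omega⟩) hpw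
      rw [hok] at hd1
      simp only [Bool.not_true, Bool.false_or] at hd1
      refine ih (i + 1) (⟨(i : ℤ) + 1, w + 1, I.1, I.2⟩ :: l) (w + 1) ((r + hh - c) % N) sA true
        (by omega) ?_ ?_ hu' hres ?_ (fun h => by simp at h) (by push_cast; exact hd1)
      · intro t ht
        rcases List.mem_cons.1 ht with rfl | ht
        · exact ⟨hR, by push_cast; exact le_refl _⟩
        · exact ⟨(hl t ht).1, by have := (hl t ht).2; push_cast; omega⟩
      · rw [List.pairwise_cons]
        exact ⟨fun t ht => by have := (hl t ht).2; show t.j < (i : ℤ) + 1; omega, hpw⟩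
      · intro h q hq
        rcases Nat.lt_succ_iff_lt_or_eq.1 hq with h' | rfl
        · exact hA h q h'
        · exact hst

/-- the whole check: all classes of the first term, of the step, of `p` -/
def check (N m : ℕ) (iv : ℤ → List (ℤ × ℤ)) (k : ℕ) : Bool :=
  (List.range N).all fun c => (!decide (Nat.Coprime c N)) ||
    (List.range N).all fun r => (List.range N).all fun hh =>
      (iv (r : ℤ)).all fun I => dfs N m c hh iv (k - 1) [⟨0, 0, I.1, I.2⟩] 0 0 r false false


/-- the blocks -/
def iv5 (r : ℤ) : List (ℤ × ℤ) := if r = 0 then [(0, 4)] else [(0, 3)]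
def iv6 (r : ℤ) : List (ℤ × ℤ) := if r = 0 then [(0, 8)] else [(1, 11)]
def iv7 (r : ℤ) : List (ℤ × ℤ) := if r = 0 then [(0, 9)] else [(2, 11)]
def iv8 (r : ℤ) : List (ℤ × ℤ) := if r = 0 then [(0, 16)] else [(4, 19)]
def iv9 (r : ℤ) : List (ℤ × ℤ) := if r = 0 then [(0, 4)] else [(1, 5)]

theorem check5 : check 2 6 iv5 5 = true := by decide +kernel
theorem check6 : check 2 15 iv6 6 = true := by decide +kernel
theorem check7 : check 2 14 iv7 7 = true := by decide +kernel
theorem check8 : check 2 24 iv8 8 = true := by decide +kernel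
theorem check9 : check 2 6 iv9 9 = true := by decide +kernel

end Vale.Agent.P057.H466
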