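import Vale.Agent.P057.Bdl.B1
import Vale.Agent.P057.H466.Tree

/-!
First level blocks for the construction of sets without long progressions: classes modulo `N`,
one list of intervals for every class.  The densities `7/12` (`k ≥ 5`), `3/5` (`k ≥ 6`),
`9/14` (`k ≥ 7`), `31/48` (`k ≥ 8`), `2/3` (`k ≥ 9`).
-/

set_option linter.all false

open Finset

namespace Vale.Agent.P057.H466

open Vale.Agent.P057.Lower

open Classical in
/-- the block -/
noncomputable def U (N m : ℕ) (iv : ℤ → List (ℤ × ℤ)) (p : ℕ) : Finset ℤ :=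
  (Finset.Ioo 0 (p : ℤ)).filter
    (fun u => ∃ I ∈ iv (u % N), I.1 * p < m * u ∧ m * u < I.2 * p)

theorem mem_U {N m : ℕ} {iv : ℤ → List (ℤ × ℤ)} {p : ℕ} {u : ℤ} (hu : u ∈ U N m iv p) :
    0 < u ∧ u < p ∧ ∃ I ∈ iv (u % N), I.1 * p < m * u ∧ m * u < I.2 * p := by
  unfold U at hu
  rw [Finset.mem_filter, Finset.mem_Ioo] at hu
  exact ⟨hu.1.1, hu.1.2, hu.2⟩

theorem long {N m : ℕ} {iv : ℤ → List (ℤ × ℤ)} {k : ℕ} (hN : 0 < N) (hk : 3 ≤ k)
    (hcheck : check N m iv k = true) {p : ℕ} (hp : 0 < p) (hcop : Nat.Coprime p N)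
    {u : ℕ → ℤ} (hu : ∀ j < k, u j ∈ U N m iv p)
    (hd : ∀ j, j + 2 < k → (p : ℤ) ∣ u j - 2 * u (j + 1) + u (j + 2)) :
    ∀ j, j + 2 < k → u j - 2 * u (j + 1) + u (j + 2) = 0 := by
  have hpz : (0 : ℤ) < p := by exact_mod_cast hp
  have hNz : (0 : ℤ) < N := by exact_mod_cast hN
  set h : ℤ := (u 1 - u 0) % p with hh
  have h0 : 0 ≤ h := Int.emod_nonneg _ hpz.ne'
  have h1 : h < p := Int.emod_lt_of_pos _ hpz
  have hcong : ∀ i, i + 1 < k → (p : ℤ) ∣ (u (i + 1) - u i) - h := by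
    intro i
    induction i with
    | zero => intro _; exact Int.dvd_self_sub_emod
    | succ i ih =>
      intro hi
      have e1 := ih (by omega)
      have e2 := hd i (by omega)
      have e3 := dvd_add e1 e2
      have e4 : (u (i + 1) - u i) - h + (u i - 2 * u (i + 1) + u (i + 2)) =
          (u (i + 1 + 1) - u (i + 1)) - h := by
        rw [show i + 1 + 1 = i + 2 from rfl]; ring
      rwa [e4] at e3
  have hs : ∀ i, i < k - 1 → u (i + 1) = u i + h ∨ u (i + 1) = u i + h - p := by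
    intro i hi
    obtain ⟨t, ht⟩ := hcong i (by omega)
    have a1 := mem_U (hu i (by omega))
    have a2 := mem_U (hu (i + 1) (by omega))
    have t1 : t < 1 := by
      by_contra hc
      have : (p : ℤ) * 1 ≤ p * t := mul_le_mul_of_nonneg_left (by omega) hpz.le
      omega
    have t2 : -2 < t := by
      by_contra hc
      have : (p : ℤ) * t ≤ p * (-2) := mul_le_mul_of_nonneg_left (by omega) hpz.le
      omega
    have t3 : t = 0 ∨ t = -1 := by omega
    rcases t3 with rfl | rfl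
    · left; linarith
    · right; linarith
  have hm : ∀ i, i ≤ k - 1 → ∃ I ∈ iv (u i % N), I.1 * p < m * u i ∧ m * u i < I.2 * p :=
    fun i hi => (mem_U (hu i (by omega))).2.2
  obtain ⟨I, hI, hI1, hI2⟩ := hm 0 (by omega)
  unfold check at hcheck
  rw [List.all_eq_true] at hcheck
  have hc1 := hcheck (p % N) (List.mem_range.2 (Nat.mod_lt _ hN))
  have hc2 : Nat.Coprime (p % N) N := by
    rw [Nat.coprime_iff_gcd_eq_one, ← Nat.gcd_rec, Nat.gcd_comm]
    exact hcop
  rw [decide_eq_true hc2] at hc1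
  simp only [Bool.not_true, Bool.false_or] at hc1
  rw [List.all_eq_true] at hc1
  have hr0 : 0 ≤ u 0 % (N : ℤ) := Int.emod_nonneg _ hNz.ne'
  have hr1 : u 0 % (N : ℤ) < N := Int.emod_lt_of_pos _ hNz
  have hg0 : 0 ≤ h % (N : ℤ) := Int.emod_nonneg _ hNz.ne'
  have hg1 : h % (N : ℤ) < N := Int.emod_lt_of_pos _ hNz
  have hc3 := hc1 (u 0 % (N : ℤ)).toNat (List.mem_range.2 (by omega))
  rw [List.all_eq_true] at hc3
  have hc4 := hc3 (h % (N : ℤ)).toNat (List.mem_range.2 (by omega))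
  rw [List.all_eq_true] at hc4
  rw [Int.toNat_of_nonneg hr0, Int.toNat_of_nonneg hg0] at hc4
  have hc5 := hc4 I hI
  have hR : Real' m p h u ⟨0, 0, I.1, I.2⟩ := ⟨0, by simp, by simp, hI1, hI2⟩
  have hfin := dfs_sound (N := (N : ℤ)) (m := (m : ℤ)) (c := ((p % N : ℕ) : ℤ))
    (hh := h % (N : ℤ)) (p := (p : ℤ)) (h := h) (iv := iv) (u := u) hpz (by push_cast; rfl) rfl
    (k - 1) hm hs (k - 1) 0 [⟨0, 0, I.1, I.2⟩] 0 (u 0 % (N : ℤ)) false false (by omega)
    (by
      intro t ht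
      rw [List.mem_singleton] at ht
      subst ht
      exact ⟨hR, by simp⟩)
    (List.pairwise_singleton _ _) (by simp) rfl (by intro _ q hq; omega)
    (by intro _ q hq; omega) hc5
  intro j hj
  rcases hfin with hf | hf
  · have e1 := hf j (by omega)
    have e2 := hf (j + 1) (by omega)
    rw [show j + 2 = j + 1 + 1 from rfl, e2, e1]
    ring
  · have e1 := hf j (by omega)
    have e2 := hf (j + 1) (by omega)
    rw [show j + 2 = j + 1 + 1 from rfl, e2, e1]
    ring

theorem block_of_check {N m : ℕ} {iv : ℤ → List (ℤ × ℤ)} {k : ℕ} (hN : 0 < N) (hk : 3 ≤ k)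
    (hcheck : check N m iv k = true) {p : ℕ} (hp : 0 < p) (hcop : Nat.Coprime p N)
    (k' : ℕ) (hk' : k ≤ k') : Block k' 1 p (U N m iv p) := by
  refine ⟨fun u hu v hv h => ?_, fun u hu hdvd j hj => ?_⟩
  · have a := mem_U hu
    have b := mem_U hv
    obtain ⟨t, ht⟩ := h
    have hpz : (0 : ℤ) < p := by exact_mod_cast hp
    have t1 : t < 1 := by
      by_contra hc
      have : (p : ℤ) * 1 ≤ p * t := mul_le_mul_of_nonneg_left (by omega) hpz.le
      omega
    have t2 : -1 < t := by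
      by_contra hc
      have : (p : ℤ) * t ≤ p * (-1) := mul_le_mul_of_nonneg_left (by omega) hpz.le
      omega
    have : t = 0 := by omega
    subst this
    omega
  · have hd : ∀ j, j + 2 < k' → (p : ℤ) ∣ u j - 2 * u (j + 1) + u (j + 2) := by
      intro j hj
      have := hdvd j (by omega)
      rwa [diff_two] at this
    rw [diff_two]
    -- a window of `k` terms
    obtain ⟨s, hs1, hs2, hs3⟩ : ∃ s, s ≤ j ∧ j - s + 2 < k ∧ s + k ≤ k' :=
      ⟨min j (k' - k), by omega, by omega, by omega⟩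
    have := long (u := fun i => u (s + i)) hN hk hcheck hp hcop
      (fun i hi => hu (s + i) (by omega))
      (fun i hi => by
        have := hd (s + i) (by omega)
        simpa only [add_assoc] using this) (j - s) hs2
    have e1 : s + (j - s) = j := by omega
    have e2 : s + (j - s + 1) = j + 1 := by omega
    have e3 : s + (j - s + 2) = j + 2 := by omega
    simpa only [e1, e2, e3] using this

/-- number of elements of one class in one interval -/
theorem card_class (N m p : ℕ) (hN : 0 < N) (hm : 0 < m) (r lo hi : ℤ) (hlo : 0 ≤ lo)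
    (hhi : hi ≤ m) :
    ((hi - lo : ℤ) : ℝ) * p / (m * N) - 3 ≤
      (((Finset.Ioo 0 (p : ℤ)).filter
        (fun u => u % N = r % N ∧ lo * p < m * u ∧ m * u < hi * p)).card : ℝ) := by
  have hmz : (0 : ℤ) < m := by exact_mod_cast hm
  have hNz : (0 : ℤ) < N := by exact_mod_cast hN
  set a : ℤ := lo * p / m with ha
  set b : ℤ := (hi * p - 1) / m with hb
  have ha0 : 0 ≤ a := Int.ediv_nonneg (by positivity) hmz.le
  have ha1 : (m : ℤ) * a ≤ lo * p := Int.mul_ediv_self_le hmz.ne'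
  have ha2 : lo * p < m * (a + 1) := by
    have := Int.lt_mul_ediv_self_add (x := lo * p) hmz
    linarith
  have hb1 : (m : ℤ) * b ≤ hi * p - 1 := Int.mul_ediv_self_le hmz.ne'
  have hb2 : hi * p - 1 < m * (b + 1) := by
    have := Int.lt_mul_ediv_self_add (x := hi * p - 1) hmz
    linarith
  have hsub : (Finset.Ioc a b).filter (fun x => x ≡ r [ZMOD (N : ℤ)]) ⊆
      (Finset.Ioo 0 (p : ℤ)).filter
        (fun u => u % N = r % N ∧ lo * p < m * u ∧ m * u < hi * p) := by
    intro x hx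
    rw [Finset.mem_filter, Finset.mem_Ioc] at hx
    obtain ⟨⟨h1, h2⟩, h3⟩ := hx
    have g1 : (m : ℤ) * (a + 1) ≤ m * x := mul_le_mul_of_nonneg_left (by omega) hmz.le
    have g2 : (m : ℤ) * x ≤ m * b := mul_le_mul_of_nonneg_left h2 hmz.le
    have g3 : hi * (p : ℤ) ≤ m * p := mul_le_mul_of_nonneg_right hhi (by positivity)
    rw [Finset.mem_filter, Finset.mem_Ioo]
    refine ⟨⟨by omega, ?_⟩, h3, by linarith, by linarith⟩
    have : (m : ℤ) * x < m * p := by linarith
    exact lt_of_mul_lt_mul_left this hmz.le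
  have hcard := Finset.card_le_card hsub
  have hcount := Int.Ioc_filter_modEq_card a b hNz r
  have hq : ((b : ℚ) - a) / N - 1 ≤
      (((Finset.Ioc a b).filter (fun x => x ≡ r [ZMOD (N : ℤ)])).card : ℚ) := by
    have h1 : ((((Finset.Ioc a b).filter (fun x => x ≡ r [ZMOD (N : ℤ)])).card : ℤ) : ℚ) =
        ((max (⌊((b : ℚ) - r) / ((N : ℤ) : ℚ)⌋ - ⌊((a : ℚ) - r) / ((N : ℤ) : ℚ)⌋) 0 : ℤ) : ℚ) := by
      exact_mod_cast hcount
    have h2 : (((⌊((b : ℚ) - r) / ((N : ℤ) : ℚ)⌋ - ⌊((a : ℚ) - r) / ((N : ℤ) : ℚ)⌋ : ℤ)) : ℚ) ≤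
        ((max (⌊((b : ℚ) - r) / ((N : ℤ) : ℚ)⌋ - ⌊((a : ℚ) - r) / ((N : ℤ) : ℚ)⌋) 0 : ℤ) : ℚ) := by
      exact_mod_cast le_max_left _ _
    have h3 := Int.lt_floor_add_one (((b : ℚ) - r) / ((N : ℤ) : ℚ))
    have h4 := Int.floor_le (((a : ℚ) - r) / ((N : ℤ) : ℚ))
    have h5 : ((b : ℚ) - r) / ((N : ℤ) : ℚ) - ((a : ℚ) - r) / ((N : ℤ) : ℚ) =
        ((b : ℚ) - a) / N := by
      push_cast
      ring
    rw [Int.cast_natCast] at h1
    rw [h1]
    push_cast at h2 ⊢
    push_cast at h3 h4 h5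
    linarith
  have hq' : ((b : ℝ) - a) / N - 1 ≤
      (((Finset.Ioc a b).filter (fun x => x ≡ r [ZMOD (N : ℤ)])).card : ℝ) := by
    exact_mod_cast hq
  have hmR : (0 : ℝ) < m := by exact_mod_cast hm
  have hNR : (1 : ℝ) ≤ N := by exact_mod_cast hN
  have c1 : (m : ℝ) * a ≤ lo * p := by exact_mod_cast ha1
  have c2 : (hi : ℝ) * p - 1 < m * (b + 1) := by exact_mod_cast hb2
  have hm1 : (1 : ℝ) ≤ m := by exact_mod_cast hm
  have c3 : ((hi - lo : ℤ) : ℝ) * p / m - 2 ≤ b - a := by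
    rw [sub_le_iff_le_add, div_le_iff₀ hmR]
    push_cast
    nlinarith
  have c4 : ((hi - lo : ℤ) : ℝ) * p / (m * N) - 2 ≤ ((b : ℝ) - a) / N := by
    have e : ((hi - lo : ℤ) : ℝ) * p / (m * N) = (((hi - lo : ℤ) : ℝ) * p / m) / N := by
      field_simp
    rw [e]
    have h6 : (((hi - lo : ℤ) : ℝ) * p / m - 2) / N ≤ ((b : ℝ) - a) / N :=
      div_le_div_of_nonneg_right c3 (by linarith)
    have h7 : (2 : ℝ) / N ≤ 2 := div_le_self (by norm_num) hNR
    rw [sub_div] at h6
    linarith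
  have c5 : (((Finset.Ioc a b).filter (fun x => x ≡ r [ZMOD (N : ℤ)])).card : ℝ) ≤
      (((Finset.Ioo 0 (p : ℤ)).filter
        (fun u => u % N = r % N ∧ lo * p < m * u ∧ m * u < hi * p)).card : ℝ) := by
    exact_mod_cast hcard
  linarith


open Classical in
theorem card_list (N m p : ℕ) (hN : 0 < N) (hm : 0 < m) (r : ℤ) : ∀ L : List (ℤ × ℤ),
    (∀ I ∈ L, 0 ≤ I.1 ∧ I.2 ≤ m) → L.Pairwise (fun I J => I.2 ≤ J.1) →
    (((L.map fun I => I.2 - I.1).sum : ℤ) : ℝ) * p / (m * N) - 3 * L.length ≤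
      (((Finset.Ioo 0 (p : ℤ)).filter
        (fun u => u % N = r % N ∧ ∃ I ∈ L, I.1 * p < m * u ∧ m * u < I.2 * p)).card : ℝ) := by
  intro L
  induction L with
  | nil => intro _ _; simp
  | cons I L ih =>
    intro hL hP
    rw [List.pairwise_cons] at hP
    have h1 := card_class N m p hN hm r I.1 I.2 (hL I List.mem_cons_self).1
      (hL I List.mem_cons_self).2
    have h2 := ih (fun J hJ => hL J (List.mem_cons_of_mem _ hJ)) hP.2
    have hdisj : Disjoint
        ((Finset.Ioo 0 (p : ℤ)).filter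
          (fun u => u % N = r % N ∧ I.1 * p < m * u ∧ m * u < I.2 * p))
        ((Finset.Ioo 0 (p : ℤ)).filter
          (fun u => u % N = r % N ∧ ∃ I ∈ L, I.1 * p < m * u ∧ m * u < I.2 * p)) := by
      rw [Finset.disjoint_left]
      intro x hx hy
      rw [Finset.mem_filter] at hx hy
      obtain ⟨J, hJ, hJ1, hJ2⟩ := hy.2.2
      have := hP.1 J hJ
      have : I.2 * (p : ℤ) ≤ J.1 * p := mul_le_mul_of_nonneg_right this (by positivity)
      linarith [hx.2.2.2]
    have hsub := Finset.card_le_card (show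
        ((Finset.Ioo 0 (p : ℤ)).filter
          (fun u => u % N = r % N ∧ I.1 * p < m * u ∧ m * u < I.2 * p)) ∪
        ((Finset.Ioo 0 (p : ℤ)).filter
          (fun u => u % N = r % N ∧ ∃ I ∈ L, I.1 * p < m * u ∧ m * u < I.2 * p)) ⊆
        ((Finset.Ioo 0 (p : ℤ)).filter
          (fun u => u % N = r % N ∧ ∃ I' ∈ I :: L, I'.1 * p < m * u ∧ m * u < I'.2 * p)) by
      intro x hx
      rw [Finset.mem_union, Finset.mem_filter, Finset.mem_filter] at hx
      rw [Finset.mem_filter]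
      rcases hx with hx | hx
      · exact ⟨hx.1, hx.2.1, I, List.mem_cons_self, hx.2.2⟩
      · obtain ⟨J, hJ, hJ'⟩ := hx.2.2
        exact ⟨hx.1, hx.2.1, J, List.mem_cons_of_mem _ hJ, hJ'⟩)
    rw [Finset.card_union_of_disjoint hdisj] at hsub
    have hsub' := (Nat.cast_le (α := ℝ)).2 hsub
    simp only [List.map_cons, List.sum_cons, List.length_cons]
    generalize (L.map fun I => I.2 - I.1).sum = S at h2 ⊢
    push_cast at hsub' h1 h2 ⊢
    have e : ((I.2 : ℝ) - I.1 + S) * p / (m * N) =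
        ((I.2 : ℝ) - I.1) * p / (m * N) + S * p / (m * N) := by
      ring
    rw [e]
    linarith

/-- total length of the intervals -/
def total (N : ℕ) (iv : ℤ → List (ℤ × ℤ)) : ℤ :=
  ∑ r ∈ Finset.range N, ((iv (r : ℤ)).map fun I => I.2 - I.1).sum

/-- number of intervals -/
def cnt (N : ℕ) (iv : ℤ → List (ℤ × ℤ)) : ℕ :=
  ∑ r ∈ Finset.range N, (iv (r : ℤ)).length

def Good (N m : ℕ) (iv : ℤ → List (ℤ × ℤ)) : Prop :=
  ∀ r ∈ Finset.range N, (∀ I ∈ iv (r : ℤ), 0 ≤ I.1 ∧ I.2 ≤ m) ∧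
    (iv (r : ℤ)).Pairwise (fun I J => I.2 ≤ J.1)

theorem card_U {N m : ℕ} {iv : ℤ → List (ℤ × ℤ)} (hN : 0 < N) (hm : 0 < m)
    (hg : Good N m iv) (p : ℕ) :
    (total N iv : ℝ) * p / (m * N) - 3 * cnt N iv ≤ ((U N m iv p).card : ℝ) := by
  classical
  have hNz : (0 : ℤ) < N := by exact_mod_cast hN
  have hmaps : ∀ u ∈ U N m iv p, (u % (N : ℤ)).toNat ∈ Finset.range N := by
    intro u _
    have h0 : 0 ≤ u % (N : ℤ) := Int.emod_nonneg _ hNz.ne'
    have h1 : u % (N : ℤ) < N := Int.emod_lt_of_pos _ hNz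
    rw [Finset.mem_range]
    omega
  rw [Finset.card_eq_sum_card_fiberwise hmaps]
  unfold total cnt
  push_cast
  rw [Finset.sum_mul, Finset.sum_div, Finset.mul_sum, ← Finset.sum_sub_distrib]
  refine Finset.sum_le_sum fun r hr => ?_
  have h1 := card_list N m p hN hm (r : ℤ) (iv (r : ℤ)) (hg r hr).1 (hg r hr).2
  have hrN := Finset.mem_range.1 hr
  have hrm : ((r : ℕ) : ℤ) % N = r := Int.emod_eq_of_lt (by positivity) (by exact_mod_cast hrN)
  have hsub : ((Finset.Ioo 0 (p : ℤ)).filter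
        (fun u => u % N = (r : ℤ) % N ∧
          ∃ I ∈ iv (r : ℤ), I.1 * p < m * u ∧ m * u < I.2 * p)) ⊆
      (U N m iv p).filter (fun u => (u % (N : ℤ)).toNat = r) := by
    intro x hx
    rw [Finset.mem_filter] at hx
    have hxr : x % (N : ℤ) = r := by rw [hx.2.1, hrm]
    rw [Finset.mem_filter]
    unfold U
    rw [Finset.mem_filter]
    refine ⟨⟨hx.1, ?_⟩, by rw [hxr]; simp⟩
    rw [hxr]
    exact hx.2.2
  have h2 := (Nat.cast_le (α := ℝ)).2 (Finset.card_le_card hsub)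
  push_cast at h1 h2 ⊢
  linarith

/-- the cost of the first level -/
theorem cost_of_check {N m : ℕ} {iv : ℤ → List (ℤ × ℤ)} {k : ℕ} (hN : 0 < N) (hm : 0 < m)
    (hk : 3 ≤ k) (hcheck : check N m iv k = true) (hg : Good N m iv) (δ : ℝ) (hδ : 0 < δ)
    (hδ' : δ = (total N iv : ℝ) / (m * N)) (k' : ℕ) (hk' : k ≤ k') :
    Cost k' 1 (Real.log (1 / δ)) := by
  intro η hη
  have hlt : Real.exp (-η) < 1 := Real.exp_lt_one_iff.2 (by linarith only [hη])
  obtain ⟨m0, hm0⟩ := eventually_div_le (3 * cnt N iv) (δ * (1 - Real.exp (-η)))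
    (mul_pos hδ (by linarith only [hlt]))
  refine ⟨max m0 (N + 1), fun p hp hpp => ?_⟩
  have hpN : N + 1 ≤ p := le_trans (le_max_right _ _) hp
  have hpm : m0 ≤ p := le_trans (le_max_left _ _) hp
  have hp0 : 0 < p := by omega
  have hcop : Nat.Coprime p N := by
    rw [Nat.Prime.coprime_iff_not_dvd hpp]
    intro h
    have := Nat.le_of_dvd hN h
    omega
  refine ⟨U N m iv p, block_of_check hN hk hcheck hp0 hcop k' hk', fun u hu => ?_, ?_⟩
  · have := mem_U hu
    rw [abs_le]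
    constructor <;> linarith
  · have hpR : (0 : ℝ) < p := by exact_mod_cast hp0
    have h1 := card_U hN hm hg p
    have h4 := hm0 p hpm
    rw [div_le_iff₀ hpR] at h4
    have h5 : Real.exp (-(Real.log (1 / δ) + η)) = δ * Real.exp (-η) := by
      rw [neg_add, Real.exp_add, Real.exp_neg (Real.log _), Real.exp_log (by positivity)]
      field_simp
    have h6 : (total N iv : ℝ) * p / (m * N) = δ * p := by
      rw [hδ']
      ring
    rw [h5, le_div_iff₀ hpR]
    rw [h6] at h1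
    nlinarith only [h1, h4]

theorem good5 : Good 2 6 iv5 := by unfold Good; decide +kernel
theorem good6 : Good 2 15 iv6 := by unfold Good; decide +kernel
theorem good7 : Good 2 14 iv7 := by unfold Good; decide +kernel
theorem good8 : Good 2 24 iv8 := by unfold Good; decide +kernel
theorem good9 : Good 2 6 iv9 := by unfold Good; decide +kernel

theorem total5 : total 2 iv5 = 7 := by decide +kernel
theorem total6 : total 2 iv6 = 18 := by decide +kernel
theorem total7 : total 2 iv7 = 18 := by decide +kernel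
theorem total8 : total 2 iv8 = 31 := by decide +kernel
theorem total9 : total 2 iv9 = 8 := by decide +kernel

/-- density `7 / 12` for `k ≥ 5` -/
theorem cost5 (k : ℕ) (hk : 5 ≤ k) : Cost k 1 (Real.log (12 / 7)) := by
  have := cost_of_check (by norm_num) (by norm_num) (by norm_num) check5 good5 (7 / 12)
    (by norm_num) (by rw [total5]; norm_num) k hk
  rwa [show (1 : ℝ) / (7 / 12) = 12 / 7 by norm_num] at this

/-- density `3 / 5` for `k ≥ 6` -/
theorem cost6 (k : ℕ) (hk : 6 ≤ k) : Cost k 1 (Real.log (5 / 3)) := by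
  have := cost_of_check (by norm_num) (by norm_num) (by norm_num) check6 good6 (3 / 5)
    (by norm_num) (by rw [total6]; norm_num) k hk
  rwa [show (1 : ℝ) / (3 / 5) = 5 / 3 by norm_num] at this

/-- density `9 / 14` for `k ≥ 7` -/
theorem cost7 (k : ℕ) (hk : 7 ≤ k) : Cost k 1 (Real.log (14 / 9)) := by
  have := cost_of_check (by norm_num) (by norm_num) (by norm_num) check7 good7 (9 / 14)
    (by norm_num) (by rw [total7]; norm_num) k hk
  rwa [show (1 : ℝ) / (9 / 14) = 14 / 9 by norm_num] at this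

/-- density `31 / 48` for `k ≥ 8` -/
theorem cost8 (k : ℕ) (hk : 8 ≤ k) : Cost k 1 (Real.log (48 / 31)) := by
  have := cost_of_check (by norm_num) (by norm_num) (by norm_num) check8 good8 (31 / 48)
    (by norm_num) (by rw [total8]; norm_num) k hk
  rwa [show (1 : ℝ) / (31 / 48) = 48 / 31 by norm_num] at this

/-- density `2 / 3` for `k ≥ 9` -/
theorem cost9 (k : ℕ) (hk : 9 ≤ k) : Cost k 1 (Real.log (3 / 2)) := by
  have := cost_of_check (by norm_num) (by norm_num) (by norm_num) check9 good9 (2 / 3)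
    (by norm_num) (by rw [total9]; norm_num) k hk
  rwa [show (1 : ℝ) / (2 / 3) = 3 / 2 by norm_num] at this

end Vale.Agent.P057.H466
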