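import Vale.Agent.P057.H466.Par

/-!
Blocks from a soundness statement, one table for all classes of `p` (the class of `u` is
multiplied by the inverse of `p` modulo `N`).
-/

set_option linter.all false

open Finset

namespace Vale.Agent.P057.H466

open Vale.Agent.P057.Lower

/-- sequences with steps `h`, `h - p` inside the block have only steps of one kind -/
def Sound (N m : ℕ) (iv : ℤ → List (ℤ × ℤ)) (k : ℕ) : Prop :=
  ∀ (p h q : ℤ) (u : ℕ → ℤ), 0 < p → (q * p) % N = 1 →
    (∀ i, i ≤ k - 1 → ∃ I ∈ iv ((q * u i) % N), I.1 * p < m * u i ∧ m * u i < I.2 * p) →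
    (∀ i, i < k - 1 → u (i + 1) = u i + h ∨ u (i + 1) = u i + h - p) →
    (∀ z < k - 1, u (z + 1) = u z + h) ∨ (∀ z < k - 1, u (z + 1) = u z + h - p)

open Classical in
/-- the block -/
noncomputable def V (N m : ℕ) (iv : ℤ → List (ℤ × ℤ)) (q : ℤ) (p : ℕ) : Finset ℤ :=
  (Finset.Ioo 0 (p : ℤ)).filter
    (fun u => ∃ I ∈ iv ((q * u) % N), I.1 * p < m * u ∧ m * u < I.2 * p)

theorem mem_V {N m : ℕ} {iv : ℤ → List (ℤ × ℤ)} {q : ℤ} {p : ℕ} {u : ℤ}
    (hu : u ∈ V N m iv q p) :
    0 < u ∧ u < p ∧ ∃ I ∈ iv ((q * u) % N), I.1 * p < m * u ∧ m * u < I.2 * p := by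
  unfold V at hu
  rw [Finset.mem_filter, Finset.mem_Ioo] at hu
  exact ⟨hu.1.1, hu.1.2, hu.2⟩

theorem longS {N m : ℕ} {iv : ℤ → List (ℤ × ℤ)} {k : ℕ} (hN : 0 < N) (hk : 3 ≤ k)
    (hS : Sound N m iv k) {p : ℕ} (hp : 0 < p) {q : ℤ} (hq : (q * p) % N = 1)
    {u : ℕ → ℤ} (hu : ∀ j < k, u j ∈ V N m iv q p)
    (hd : ∀ j, j + 2 < k → (p : ℤ) ∣ u j - 2 * u (j + 1) + u (j + 2)) :
    ∀ j, j + 2 < k → u j - 2 * u (j + 1) + u (j + 2) = 0 := by
  have hpz : (0 : ℤ) < p := by exact_mod_cast hp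
  have hNz : (0 : ℤ) < N := by exact_mod_cast hN
  set h : ℤ := (u 1 - u 0) % p with hh
  have h0 : 0 ≤ h := Int.emod_nonneg _ hpz.ne'
  have h1 : h < p := Int.emod_lt_of_pos _ hpz
  have hcong : ∀ i, i + 1 < k → (p : ℤ) ∣ (u (i + 1) - u i) - h := by
    intro i
    induction i with
    | zero => intro _; exact Int.dvd_self_sub_emod
    | succ i ih =>
      intro hi
      have e1 := ih (by omega)
      have e2 := hd i (by omega)
      have e3 := dvd_add e1 e2
      have e4 : (u (i + 1) - u i) - h + (u i - 2 * u (i + 1) + u (i + 2)) =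
          (u (i + 1 + 1) - u (i + 1)) - h := by
        rw [show i + 1 + 1 = i + 2 from rfl]; ring
      rwa [e4] at e3
  have hs : ∀ i, i < k - 1 → u (i + 1) = u i + h ∨ u (i + 1) = u i + h - p := by
    intro i hi
    obtain ⟨t, ht⟩ := hcong i (by omega)
    have a1 := mem_V (hu i (by omega))
    have a2 := mem_V (hu (i + 1) (by omega))
    have t1 : t < 1 := by
      by_contra hc
      have : (p : ℤ) * 1 ≤ p * t := mul_le_mul_of_nonneg_left (by omega) hpz.le
      omega
    have t2 : -2 < t := by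
      by_contra hc
      have : (p : ℤ) * t ≤ p * (-2) := mul_le_mul_of_nonneg_left (by omega) hpz.le
      omega
    have t3 : t = 0 ∨ t = -1 := by omega
    rcases t3 with rfl | rfl
    · left; linarith
    · right; linarith
  have hm : ∀ i, i ≤ k - 1 → ∃ I ∈ iv ((q * u i) % N), I.1 * p < m * u i ∧ m * u i < I.2 * p :=
    fun i hi => (mem_V (hu i (by omega))).2.2
  have hfin := hS p h q u hpz hq hm hs
  intro j hj
  rcases hfin with hf | hf
  · have e1 := hf j (by omega)
    have e2 := hf (j + 1) (by omega)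
    rw [show j + 2 = j + 1 + 1 from rfl, e2, e1]
    ring
  · have e1 := hf j (by omega)
    have e2 := hf (j + 1) (by omega)
    rw [show j + 2 = j + 1 + 1 from rfl, e2, e1]
    ring

theorem block_of_sound {N m : ℕ} {iv : ℤ → List (ℤ × ℤ)} {k : ℕ} (hN : 0 < N) (hk : 3 ≤ k)
    (hS : Sound N m iv k) {p : ℕ} (hp : 0 < p) {q : ℤ} (hq : (q * p) % N = 1)
    (k' : ℕ) (hk' : k ≤ k') : Block k' 1 p (V N m iv q p) := by
  refine ⟨fun u hu v hv h => ?_, fun u hu hdvd j hj => ?_⟩
  · have a := mem_V hu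
    have b := mem_V hv
    obtain ⟨t, ht⟩ := h
    have hpz : (0 : ℤ) < p := by exact_mod_cast hp
    have t1 : t < 1 := by
      by_contra hc
      have : (p : ℤ) * 1 ≤ p * t := mul_le_mul_of_nonneg_left (by omega) hpz.le
      omega
    have t2 : -1 < t := by
      by_contra hc
      have : (p : ℤ) * t ≤ p * (-1) := mul_le_mul_of_nonneg_left (by omega) hpz.le
      omega
    have : t = 0 := by omega
    subst this
    omega
  · have hd : ∀ j, j + 2 < k' → (p : ℤ) ∣ u j - 2 * u (j + 1) + u (j + 2) := by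
      intro j hj
      have := hdvd j (by omega)
      rwa [diff_two] at this
    rw [diff_two]
    -- a window of `k` terms
    obtain ⟨s, hs1, hs2, hs3⟩ : ∃ s, s ≤ j ∧ j - s + 2 < k ∧ s + k ≤ k' :=
      ⟨min j (k' - k), by omega, by omega, by omega⟩
    have := longS (u := fun i => u (s + i)) hN hk hS hp hq
      (fun i hi => hu (s + i) (by omega))
      (fun i hi => by
        have := hd (s + i) (by omega)
        simpa only [add_assoc] using this) (j - s) hs2
    have e1 : s + (j - s) = j := by omega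
    have e2 : s + (j - s + 1) = j + 1 := by omega
    have e3 : s + (j - s + 2) = j + 2 := by omega
    simpa only [e1, e2, e3] using this

theorem card_V {N m : ℕ} {iv : ℤ → List (ℤ × ℤ)} (hN : 0 < N) (hm : 0 < m)
    (hg : Good N m iv) (p : ℕ) {q : ℤ} (hq : (q * p) % N = 1) :
    (total N iv : ℝ) * p / (m * N) - 3 * cnt N iv ≤ ((V N m iv q p).card : ℝ) := by
  classical
  have hNz : (0 : ℤ) < N := by exact_mod_cast hN
  have hmaps : ∀ u ∈ V N m iv q p, ((q * u) % (N : ℤ)).toNat ∈ Finset.range N := by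
    intro u _
    have h0 : 0 ≤ (q * u) % (N : ℤ) := Int.emod_nonneg _ hNz.ne'
    have h1 : (q * u) % (N : ℤ) < N := Int.emod_lt_of_pos _ hNz
    rw [Finset.mem_range]
    omega
  rw [Finset.card_eq_sum_card_fiberwise hmaps]
  unfold total cnt
  push_cast
  rw [Finset.sum_mul, Finset.sum_div, Finset.mul_sum, ← Finset.sum_sub_distrib]
  refine Finset.sum_le_sum fun r hr => ?_
  have h1 := card_list N m p hN hm ((p : ℤ) * r) (iv (r : ℤ)) (hg r hr).1 (hg r hr).2
  have hrN := Finset.mem_range.1 hr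
  have hrm : ((r : ℕ) : ℤ) % N = r := Int.emod_eq_of_lt (by positivity) (by exact_mod_cast hrN)
  have hsub : ((Finset.Ioo 0 (p : ℤ)).filter
        (fun u => u % N = ((p : ℤ) * r) % N ∧
          ∃ I ∈ iv (r : ℤ), I.1 * p < m * u ∧ m * u < I.2 * p)) ⊆
      (V N m iv q p).filter (fun u => ((q * u) % (N : ℤ)).toNat = r) := by
    intro x hx
    rw [Finset.mem_filter] at hx
    have hxr : (q * x) % (N : ℤ) = r := by
      have e1 : q * x ≡ q * ((p : ℤ) * r) [ZMOD (N : ℤ)] := Int.ModEq.mul_left _ hx.2.1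
      have e2 : q * p ≡ 1 [ZMOD (N : ℤ)] := by
        rw [Int.ModEq, hq]
        rcases Nat.lt_or_ge 1 N with h | h
        · exact (Int.emod_eq_of_lt (by norm_num) (by exact_mod_cast h)).symm
        · have hN1 : N = 1 := by omega
          subst hN1
          simp at hq
      have e3 : q * ((p : ℤ) * r) ≡ 1 * r [ZMOD (N : ℤ)] := by
        rw [← mul_assoc]
        exact Int.ModEq.mul_right _ e2
      have e4 := e1.trans e3
      rw [Int.ModEq, one_mul, hrm] at e4
      exact e4
    rw [Finset.mem_filter]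
    unfold V
    rw [Finset.mem_filter]
    refine ⟨⟨hx.1, ?_⟩, by rw [hxr]; simp⟩
    rw [hxr]
    exact hx.2.2
  have h2 := (Nat.cast_le (α := ℝ)).2 (Finset.card_le_card hsub)
  push_cast at h1 h2 ⊢
  linarith

/-- the cost of the first level -/
theorem cost_of_sound {N m : ℕ} {iv : ℤ → List (ℤ × ℤ)} {k : ℕ} (hN : 1 < N) (hm : 0 < m)
    (hk : 3 ≤ k) (hS : Sound N m iv k) (hg : Good N m iv) (δ : ℝ) (hδ : 0 < δ)
    (hδ' : δ = (total N iv : ℝ) / (m * N)) (k' : ℕ) (hk' : k ≤ k') :
    Cost k' 1 (Real.log (1 / δ)) := by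
  intro η hη
  have hlt : Real.exp (-η) < 1 := Real.exp_lt_one_iff.2 (by linarith only [hη])
  obtain ⟨m0, hm0⟩ := eventually_div_le (3 * cnt N iv) (δ * (1 - Real.exp (-η)))
    (mul_pos hδ (by linarith only [hlt]))
  refine ⟨max m0 (N + 1), fun p hp hpp => ?_⟩
  have hpN : N + 1 ≤ p := le_trans (le_max_right _ _) hp
  have hpm : m0 ≤ p := le_trans (le_max_left _ _) hp
  have hp0 : 0 < p := by omega
  have hcop : Nat.Coprime p N := by
    rw [Nat.Prime.coprime_iff_not_dvd hpp]
    intro h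
    have := Nat.le_of_dvd (by omega) h
    omega
  obtain ⟨q0, _, hq0⟩ := Nat.exists_mul_mod_eq_one_of_coprime hcop hN
  have hq : ((q0 : ℤ) * p) % N = 1 := by
    rw [mul_comm]
    exact_mod_cast hq0
  refine ⟨V N m iv q0 p, block_of_sound (by omega) hk hS hp0 hq k' hk', fun u hu => ?_, ?_⟩
  · have := mem_V hu
    rw [abs_le]
    constructor <;> linarith
  · have hpR : (0 : ℝ) < p := by exact_mod_cast hp0
    have h1 := card_V (by omega) hm hg p hq
    have h4 := hm0 p hpm
    rw [div_le_iff₀ hpR] at h4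
    have h5 : Real.exp (-(Real.log (1 / δ) + η)) = δ * Real.exp (-η) := by
      rw [neg_add, Real.exp_add, Real.exp_neg (Real.log _), Real.exp_log (by positivity)]
      field_simp
    have h6 : (total N iv : ℝ) * p / (m * N) = δ * p := by
      rw [hδ']
      ring
    rw [h5, le_div_iff₀ hpR]
    rw [h6] at h1
    nlinarith only [h1, h4]




end Vale.Agent.P057.H466
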